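import Vale.Agent.P190.Defs

/-!
P190, small Cohen–Macaulay modules: the frozen module statements of the disproof.
-/

open RingTheory.Sequence IsLocalRing

namespace Vale.Agent.P190

/-- A complete local domain of dimension three without a small Cohen–Macaulay module. -/
def Target : Prop :=
  ∃ (A : Type) (_ : CommRing A) (_ : IsDomain A) (_ : IsLocalRing A),
    IsNoetherianRing A ∧ IsAdicComplete (maximalIdeal A) A ∧ ringKrullDim A = 3 ∧
      ∀ (M : Type) [AddCommGroup M] [Module A M] [Module.Finite A M] (rs : List A),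
        rs.length = 3 → (∀ a ∈ rs, a ∈ maximalIdeal A) → ¬ IsRegular M rs

/-- Module 7 (HAT): the completion is a complete local domain of dimension three, and a module of
depth three over it gives actions on a free `k[x, y, z]`-module to every order. -/
def HatModule : Prop :=
  ∀ (k K : Type) [Field k] [Field K] [Algebra k K] (C : Ring3 k K),
    IsNoetherianRing C.Hat ∧ ringKrullDim C.Hat = 3 ∧
    ∃ _ : IsLocalRing C.Hat, IsAdicComplete (maximalIdeal C.Hat) C.Hat ∧
      ∀ (M : Type) [AddCommGroup M] [Module C.Hat M] [Module.Finite C.Hat M] (rs : List C.Hat),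
        rs.length = 3 → (∀ a ∈ rs, a ∈ maximalIdeal C.Hat) → IsRegular M rs →
          ∃ r : ℕ, 0 < r ∧ ∀ L : ℕ, C.Approx r L

/-- The algebraic closure of a prime field. -/
abbrev fbar (p : Nat.Primes) : Type :=
  haveI := Fact.mk p.2
  AlgebraicClosure (ZMod (p : ℕ))

noncomputable instance fbarField (p : Nat.Primes) : Field (fbar p) :=
  haveI := Fact.mk p.2
  inferInstanceAs (Field (AlgebraicClosure (ZMod (p : ℕ))))

instance fbarClosed (p : Nat.Primes) : IsAlgClosed (fbar p) :=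
  haveI := Fact.mk p.2
  inferInstanceAs (IsAlgClosed (AlgebraicClosure (ZMod (p : ℕ))))

instance fbarCharP (p : Nat.Primes) : CharP (fbar p) (p : ℕ) :=
  haveI := Fact.mk p.2
  inferInstanceAs (CharP (AlgebraicClosure (ZMod (p : ℕ))) (p : ℕ))

/-- A family of cones of one shape over the algebraic closures of the prime fields. -/
structure Family (d g b P₀ : ℕ) where
  /-- The field. -/
  K : Nat.Primes → Type
  /-- It is a field. -/
  [field : ∀ p, Field (K p)]
  /-- It is an algebra over the algebraic closure of the prime field. -/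
  [alg : ∀ p, Algebra (fbar p) (K p)]
  /-- The cone. -/
  cone : ∀ p : Nat.Primes, P₀ ≤ (p : ℕ) → Cone (fbar p) (K p)
  d_eq : ∀ p hp, (cone p hp).d = d
  g_eq : ∀ p hp, (cone p hp).g = g
  bound : ∀ p hp, Module.finrank (fbar p) ((cone p hp).R g) ≤ b

attribute [instance] Family.field Family.alg

/-- Module 3 (SPREAD): a family has a limit ring in characteristic zero whose approximate actions
reduce, to any given order and for arbitrarily large primes. -/
def SpreadModule : Prop :=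
  ∀ (d g b P₀ : ℕ) (Φ : Family d g b P₀),
    ∃ (k K : Type) (_ : Field k) (_ : Field K) (_ : Algebra k K) (_ : CharZero k) (C : Ring3 k K),
      ∀ r L : ℕ, (∀ L', C.Approx r L') →
        ∀ Q : ℕ, ∃ (p : Nat.Primes) (hp : P₀ ≤ (p : ℕ)), Q ≤ (p : ℕ) ∧ (Φ.cone p hp).Approx r L

/-- Module 1 (MINIMISE): an action to high enough order gives a graded module with a window. -/
def MinimiseModule : Prop :=
  ∀ d g r₀ : ℕ, 0 < r₀ → ∃ L : ℕ, ∀ (k K : Type) [Field k] [Field K] [Algebra k K] [Infinite k]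
    (C : Cone k K), C.d = d → C.g = g → C.Approx r₀ L →
      ∃ (r : ℕ) (N : ℤ → Submodule k (Fin r → K)), 0 < r ∧ r ≤ r₀ ∧ C.IsMod N ∧ C.Window N

/-- Modules 2, 4, 5 (BOUND): over large characteristic a module with a window bounds `K² - 8χ`. -/
def BoundModule : Prop :=
  ∀ d g r : ℕ, 0 < r → ∃ P₁ : ℕ, ∀ p : ℕ, p.Prime → P₁ ≤ p →
    ∀ (k K : Type) [Field k] [Field K] [Algebra k K] [CharP k p] [IsAlgClosed k] (C : Cone k K),
      C.d = d → C.g = g → C.Smooth →
      ∀ N : ℤ → Submodule k (Fin r → K), C.IsMod N → C.Window N →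
        ∀ num : ℚ, C.SigIs num → num ≤ 10 * d

/-- Module 6 (EXAMPLE): cones of one shape, smooth, with `K² - 8χ > 10 d`. -/
def ExampleModule : Prop :=
  ∃ (d g b P₀ : ℕ) (Φ : Family d g b P₀), ∀ p hp,
    (Φ.cone p hp).Smooth ∧ ∃ num : ℚ, (Φ.cone p hp).SigIs num ∧ (10 * d : ℚ) < num

theorem target_of (h₇ : HatModule) (h₃ : SpreadModule) (h₁ : MinimiseModule) (h₂ : BoundModule)
    (h₆ : ExampleModule) : Target := by
  obtain ⟨d, g, b, P₀, Φ, hΦ⟩ := h₆
  obtain ⟨k, K, _, _, _, hk, C, hC⟩ := h₃ d g b P₀ Φ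
  obtain ⟨hN, hdim, hl, hc, hreg⟩ := h₇ k K C
  refine ⟨C.Hat, inferInstance, inferInstance, hl, hN, hc, hdim, ?_⟩
  intro M _ _ _ rs hlen hmem hrs
  obtain ⟨r₀, hr₀, happ⟩ := hreg M rs hlen hmem hrs
  obtain ⟨L, hL⟩ := h₁ d g r₀ hr₀
  obtain ⟨P₁, hP₁⟩ : ∃ P₁ : ℕ, ∀ r, 0 < r → r ≤ r₀ → ∀ p : ℕ, p.Prime → P₁ ≤ p →
      ∀ (k K : Type) [Field k] [Field K] [Algebra k K] [CharP k p] [IsAlgClosed k] (C : Cone k K),
        C.d = d → C.g = g → C.Smooth →
        ∀ N : ℤ → Submodule k (Fin r → K), C.IsMod N → C.Window N →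
          ∀ num : ℚ, C.SigIs num → num ≤ 10 * d := by
    choose F hF using fun r : ℕ => fun hr : 0 < r => h₂ d g r hr
    refine ⟨(Finset.range (r₀ + 1)).sup fun r => if hr : 0 < r then F r hr else 0,
      fun r hr hle p hp hpP => hF r hr p hp (le_trans ?_ hpP)⟩
    exact le_trans (le_of_eq (dif_pos hr).symm) (Finset.le_sup
      (f := fun r => if hr : 0 < r then F r hr else 0) (Finset.mem_range.2 (by omega)))
  obtain ⟨p, hp, hQ, happ'⟩ := hC r₀ L happ P₁
  haveI : Infinite (fbar p) := IsAlgClosed.instInfinite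
  obtain ⟨r, N, hr, hle, hmod, hwin⟩ :=
    hL _ _ (Φ.cone p hp) (Φ.d_eq p hp) (Φ.g_eq p hp) happ'
  obtain ⟨hs, num, hnum, hlt⟩ := hΦ p hp
  exact absurd (hP₁ r hr hle p p.2 hQ _ _ (Φ.cone p hp) (Φ.d_eq p hp) (Φ.g_eq p hp) hs N hmod hwin
    num hnum) (not_le.2 hlt)

end Vale.Agent.P190
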