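import Mathlib

/-!
P190, small Cohen–Macaulay modules: the frozen vocabulary.

A graded torsion-free module of rank `r` over a graded ring is written degree by degree inside a fixed
vector space over the field `K` of degree-zero fractions: an element of degree `n` is divided by `x ^ n`.
So the ring is a family `R : ℤ → Submodule k K` with `x ↦ 1`, `y ↦ η`, `z ↦ ζ`, and a module is a family
`ℤ → Submodule k (Fin r → K)`.
-/

open Filter

namespace Vale.Agent.P190

/-- The subfield generated by two elements. -/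
abbrev ratField (k : Type) {K : Type} [Field k] [Field K] [Algebra k K] (η ζ : K) :
    IntermediateField k K :=
  IntermediateField.adjoin k ({η, ζ} : Set K)

variable {k K : Type} [Field k] [Field K] [Algebra k K]

/-- Polynomials in `η, ζ` of degree at most `m`: the degree `m` part of `k[x, y, z]`. -/
noncomputable def polySpace (η ζ : K) (m : ℤ) : Submodule k K :=
  Submodule.span k {v | ∃ a b : ℕ, ((a + b : ℕ) : ℤ) ≤ m ∧ v = η ^ a * ζ ^ b}

/-- The `k[x, y, z]`-dual `Hom(N, A(-3))` of a family, through the trace of `K` over `k(η, ζ)`. -/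
noncomputable def dualFam {ι : Type} [Fintype ι] (η ζ : K) (N : ℤ → Submodule k (ι → K)) (n : ℤ) :
    Submodule k (ι → K) where
  carrier := {w | ∀ j, ∀ v ∈ N j,
    ((Algebra.trace (ratField k η ζ) K (∑ i, w i * v i) : ratField k η ζ) : K)
      ∈ polySpace (k := k) η ζ (n + j - 3)}
  add_mem' := fun {w w'} hw hw' j v hv => by
    simp only [Pi.add_apply, add_mul, Finset.sum_add_distrib, map_add]
    exact add_mem (hw j v hv) (hw' j v hv)
  zero_mem' := fun j v _ => by simp
  smul_mem' := fun c w hw j v hv => by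
    have h : ∑ i, (c • w) i * v i
        = (algebraMap k (ratField k η ζ) c) • ∑ i, w i * v i := by
      rw [Finset.smul_sum]
      refine Finset.sum_congr rfl fun i _ => ?_
      rw [Pi.smul_apply, algebraMap_smul, smul_mul_assoc]
    rw [h, map_smul, algebraMap_smul]
    exact Submodule.smul_mem _ c (hw j v hv)

/-- A family in `K` as a family in `Fin 1 → K`. -/
noncomputable def one1 (S : ℤ → Submodule k K) (n : ℤ) : Submodule k (Fin 1 → K) :=
  (S n).comap (LinearMap.proj 0)

/-- The Hilbert polynomial of a family is `r (n+2)(n+1)/2 + e (n+1) + c`. -/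
def HasPoly {W : Type} [AddCommGroup W] [Module k W] (N : ℤ → Submodule k W) (r e c : ℚ) : Prop :=
  ∀ᶠ n : ℤ in atTop,
    (Module.finrank k (N n) : ℚ) = r * (((n : ℚ) + 2) * ((n : ℚ) + 1) / 2) + e * ((n : ℚ) + 1) + c

/-- The excess of a Hilbert polynomial over that of a balanced free module: with
`y = n + 3/2 + e/r` the polynomial is `r (y²/2 - 1/8) + excess`. -/
def excess (r e c : ℚ) : ℚ := c - e / 2 - e ^ 2 / (2 * r)

variable (k K)

/-- A graded domain finite over `k[x, y, z]`, given degree by degree inside a field: an element of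
degree `n` is written divided by `x ^ n`. -/
structure Ring3 where
  /-- The fraction `y / x`. -/
  η : K
  /-- The fraction `z / x`. -/
  ζ : K
  /-- The pieces. -/
  R : ℤ → Submodule k K
  /-- A degree from which on the pieces are generated by `x, y, z`. -/
  g : ℕ
  R_zero : R 0 = Submodule.span k {1}
  R_neg : ∀ n : ℤ, n < 0 → R n = ⊥
  one_mem : (1 : K) ∈ R 1
  η_mem : η ∈ R 1
  ζ_mem : ζ ∈ R 1
  mul_mem : ∀ (m n : ℤ), ∀ a ∈ R m, ∀ b ∈ R n, a * b ∈ R (m + n)
  fd : ∀ n, FiniteDimensional k (R n)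
  gen : ∀ n : ℤ, (g : ℤ) ≤ n →
    R (n + 1) = R n ⊔ (R n).map (LinearMap.mulLeft k η) ⊔ (R n).map (LinearMap.mulLeft k ζ)
  indep : AlgebraicIndependent k ![η, ζ]

/-- A `Ring3` of rank `d` in its field of fractions of degree zero, separable over `k(η, ζ)`. -/
structure Cone extends Ring3 k K where
  /-- The rank over `k[x, y, z]`. -/
  d : ℕ
  d_pos : 0 < d
  finrank_K : Module.finrank (ratField k η ζ) K = d
  sep : Algebra.IsSeparable (ratField k η ζ) K
  span_top : Submodule.span (ratField k η ζ) (R g : Set K) = ⊤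

variable {k K}

namespace Ring3

variable (C : Ring3 k K)

/-- The completion: power series with `n`-th coefficient in the `n`-th piece. -/
noncomputable def Hat : Subring (PowerSeries K) where
  carrier := {f | ∀ n : ℕ, PowerSeries.coeff n f ∈ C.R n}
  zero_mem' := fun n => by simp
  one_mem' := fun n => by
    rcases n with _ | n
    · simp [C.R_zero]
    · simp [PowerSeries.coeff_one]
  add_mem' := fun {f g} hf hg n => by
    simpa using add_mem (hf n) (hg n)
  neg_mem' := fun {f} hf n => by simpa using hf n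
  mul_mem' := fun {f g} hf hg n => by
    rw [PowerSeries.coeff_mul]
    refine sum_mem fun p hp => ?_
    rw [Finset.HasAntidiagonal.mem_antidiagonal] at hp
    have h := C.mul_mem _ _ _ (hf p.1) _ (hg p.2)
    rwa [← Nat.cast_add, hp] at h

/-- The homogeneous element `a T` of the completion. -/
noncomputable def lin (a : K) (ha : a ∈ C.R 1) : C.Hat :=
  ⟨PowerSeries.monomial 1 a, fun n => by
    rw [PowerSeries.coeff_monomial]
    split_ifs with h
    · subst h; simpa using ha
    · exact zero_mem _⟩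

/-- The parameters of the completion. -/
noncomputable def params : List C.Hat :=
  [C.lin 1 C.one_mem, C.lin C.η C.η_mem, C.lin C.ζ C.ζ_mem]

/-- The matrix has no entries of degree below `L`. -/
def IsSmall {r : ℕ} (L : ℕ) (P : Matrix (Fin r) (Fin r) (MvPolynomial (Fin 3) k)) : Prop :=
  ∀ i j (s : Fin 3 →₀ ℕ), (∑ t, s t) < L → MvPolynomial.coeff s (P i j) = 0

/-- An action of the ring on a free module of rank `r` over `k[x, y, z]`, to order `L`. -/
def Approx (r L : ℕ) : Prop :=
  ∃ Φ : ∀ n : ℕ, C.R n →ₗ[k] Matrix (Fin r) (Fin r) (MvPolynomial (Fin 3) k),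
    (∀ h : (1 : K) ∈ C.R ((0 : ℕ) : ℤ), IsSmall (k := k) L (Φ 0 ⟨1, h⟩ - 1)) ∧
    IsSmall (k := k) L (Φ 1 ⟨1, by simpa using C.one_mem⟩
      - (MvPolynomial.X (0 : Fin 3) : MvPolynomial (Fin 3) k) • (1 : Matrix (Fin r) (Fin r) (MvPolynomial (Fin 3) k))) ∧
    IsSmall (k := k) L (Φ 1 ⟨C.η, by simpa using C.η_mem⟩
      - (MvPolynomial.X (1 : Fin 3) : MvPolynomial (Fin 3) k) • (1 : Matrix (Fin r) (Fin r) (MvPolynomial (Fin 3) k))) ∧
    IsSmall (k := k) L (Φ 1 ⟨C.ζ, by simpa using C.ζ_mem⟩
      - (MvPolynomial.X (2 : Fin 3) : MvPolynomial (Fin 3) k) • (1 : Matrix (Fin r) (Fin r) (MvPolynomial (Fin 3) k))) ∧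
    ∀ m n : ℕ, m + n ≤ L → ∀ (a : C.R m) (b : C.R n) (h : (a : K) * b ∈ C.R ((m + n : ℕ) : ℤ)),
      IsSmall (k := k) L (Φ (m + n) ⟨(a : K) * b, h⟩ - Φ m a * Φ n b)

end Ring3

namespace Cone

variable (C : Cone k K)

/-- The canonical module. -/
noncomputable def omega (n : ℤ) : Submodule k (Fin 1 → K) := dualFam C.η C.ζ (one1 C.R) n

/-- A graded torsion-free reflexive module of rank `r`. -/
structure IsMod {r : ℕ} (N : ℤ → Submodule k (Fin r → K)) : Prop where
  smul_mem : ∀ (m n : ℤ), ∀ a ∈ C.R m, ∀ v ∈ N n, a • v ∈ N (m + n)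
  fd : ∀ n, FiniteDimensional k (N n)
  below : ∃ n₀, ∀ n < n₀, N n = ⊥
  gen : ∃ b, ∀ n ≥ b, N (n + 1) = N n
    ⊔ (N n).map (DistribSMul.toLinearMap k (Fin r → K) C.η)
    ⊔ (N n).map (DistribSMul.toLinearMap k (Fin r → K) C.ζ)
  span_top : Submodule.span K (⋃ n, (N n : Set (Fin r → K))) = ⊤
  reflexive : ∀ n, dualFam C.η C.ζ (dualFam C.η C.ζ N) n = N n

/-- The part of a module in a subspace. -/
def part {r : ℕ} (N : ℤ → Submodule k (Fin r → K)) (V : Submodule K (Fin r → K)) (n : ℤ) :
    Submodule k (Fin r → K) :=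
  N n ⊓ V.restrictScalars k

/-- Nonnegative excess, and all submodules and quotients have slopes within `1/2` of the slope. -/
def Window {r : ℕ} (N : ℤ → Submodule k (Fin r → K)) : Prop :=
  ∃ e c : ℚ, HasPoly N ((C.d * r : ℕ) : ℚ) e c ∧ 0 ≤ excess ((C.d * r : ℕ) : ℚ) e c ∧
    ∀ V : Submodule K (Fin r → K), V ≠ ⊥ → V ≠ ⊤ → ∀ eV cV : ℚ,
      HasPoly (part N V) ((C.d * Module.finrank K V : ℕ) : ℚ) eV cV →
      eV ≤ e / r * Module.finrank K V +
        min ((C.d : ℚ) * Module.finrank K V) (C.d * ((r : ℚ) - Module.finrank K V)) / 2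

/-- The charts of the projective surface. -/
noncomputable def chart (s : K) : Subalgebra k K :=
  Algebra.adjoin k {v | ∃ n : ℕ, ∃ a ∈ C.R n, v = a / s ^ n}

/-- The ring is reflexive, and the maximal ideals of the three standard charts are generated by two
elements after localisation: the projective surface is smooth. -/
def Smooth : Prop :=
  (∀ n, dualFam C.η C.ζ (dualFam C.η C.ζ (one1 C.R)) n = one1 C.R n) ∧
  ∀ s ∈ ({1, C.η, C.ζ} : Set K), ∀ P : Ideal (C.chart s), P.IsMaximal →
    ∃ u ∈ P, ∃ v ∈ P, ∀ w ∈ P, ∃ t ∉ P, t * w ∈ Ideal.span {u, v}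

/-- The canonical module is the ring shifted by `a`, and `num = -8 c₀` where the Hilbert polynomial of
the ring is `d/2 (n - a/2)² + c₀` (the number `K² - 8 χ`). -/
def SigIs (num : ℚ) : Prop :=
  ∃ (a : ℕ) (w : K) (e c : ℚ), w ≠ 0 ∧
    (∀ n, C.omega n = (one1 C.R (n + a)).map (DistribSMul.toLinearMap k (Fin 1 → K) w)) ∧
    HasPoly C.R C.d e c ∧ num = (C.d : ℚ) - 8 * excess C.d e c

end Cone

end Vale.Agent.P190
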