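import Vale.Agent.P190.Spec

/-! P190: the target, stated literally and for modules in any universe. -/

open RingTheory.Sequence IsLocalRing

namespace Vale.Agent.P190

universe u

/-- The assembled statement, for modules in any universe. -/
theorem no_small_cm_of_target (h : Target) :
    ∃ (A : Type) (_ : CommRing A) (_ : IsDomain A) (_ : IsLocalRing A),
      IsNoetherianRing A ∧ IsAdicComplete (IsLocalRing.maximalIdeal A) A ∧ ringKrullDim A = 3 ∧
        ∀ (M : Type u) [AddCommGroup M] [Module A M] [Module.Finite A M] (rs : List A),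
          rs.length = 3 → (∀ a ∈ rs, a ∈ IsLocalRing.maximalIdeal A) →
            ¬ RingTheory.Sequence.IsRegular M rs := by
  obtain ⟨A, i1, i2, i3, hN, hc, hd, h⟩ := h
  refine ⟨A, i1, i2, i3, hN, hc, hd, fun M _ _ _ rs hl hm hr => ?_⟩
  obtain ⟨n, f, hf⟩ := Module.Finite.exists_fin' A M
  exact h _ rs hl hm ((LinearEquiv.isRegular_congr (f.quotKerEquivOfSurjective hf) rs).2 hr)

end Vale.Agent.P190
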